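import Vale.Agent.P106.R.E8.H380.Join
import Vale.Agent.P106.R.E.Tame

/-!
# P106 / R / E8 : **[UNX]** uncrossing of two pairwise boxes around the pieces (helper380)

`stUNX : StMEET → StREP → StUNX`.
-/

set_option autoImplicit false

namespace Vale.Agent.P106.R.E8

open Filter Topology Finset Vale.Agent.P127 Vale.Agent.P127.Stk Vale.Agent.P127.U Vale.Agent.P127.U.Sys Vale.Agent.P106.R.C2
  Vale.Agent.P106.R.E

section entropy

variable {S : Sys} {α β γ : Type}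

theorem hc_swap_r380 {X : S.RV α} {Y : S.RV β} {Z : S.RV γ} : S.hc X (Sys.pr Y Z) = S.hc X (Sys.pr Z Y) :=
  hc_congr (Eventually.of_forall fun _ _ _ _ _ q => congrArg Prod.fst q)
    (Eventually.of_forall fun _ _ _ _ _ q => congrArg Prod.fst q)
    (Eventually.of_forall fun _ _ _ _ _ q => by
      simp only [Sys.pr_apply, Prod.mk.injEq] at q ⊢
      exact ⟨q.2, q.1⟩)
    (Eventually.of_forall fun _ _ _ _ _ q => by
      simp only [Sys.pr_apply, Prod.mk.injEq] at q ⊢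
      exact ⟨q.2, q.1⟩)

theorem hc_swap_l380 {X : S.RV α} {Y : S.RV β} {Z : S.RV γ} : S.hc (Sys.pr X Y) Z = S.hc (Sys.pr Y X) Z :=
  hc_congr (Eventually.of_forall fun _ _ _ _ _ q => by
      simp only [Sys.pr_apply, Prod.mk.injEq] at q ⊢
      exact ⟨q.1.2, q.1.1⟩)
    (Eventually.of_forall fun _ _ _ _ _ q => by
      simp only [Sys.pr_apply, Prod.mk.injEq] at q ⊢
      exact ⟨q.1.2, q.1.1⟩)
    (Eventually.of_forall fun _ _ _ _ _ q => q) (Eventually.of_forall fun _ _ _ _ _ q => q)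

/-- two copies over the second box -/
theorem uncross_copies380 (X : S.RV α) (Z₁ : S.RV β) (Z₂ : S.RV γ) (tX : Tame X) (t2 : Tame Z₂) :
    ∃ (S' : Sys) (e0 e1 : Ext S' S), (∀ i ω, 0 < (S'.P i).w ω → Z₂ i (e1.π i ω) = Z₂ i (e0.π i ω)) ∧
      S.hc X Z₁ + S.hc X Z₂ - S.mi Z₂ Z₁ X - S.hc X (Sys.pr Z₁ Z₂) ≤ S'.hc (e1.pull X) (e0.pull Z₁) := by
  obtain ⟨S', e, hW, hind⟩ := exists_copies S Z₂ 1
  refine ⟨S', e 0, e 1, fun i ω h => hW 1 i ω h, ?_⟩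
  set X₁ := (e 1).pull X with hX1
  set A := (e 0).pull Z₁ with hA
  set B₀ := (e 0).pull Z₂ with hB0
  set B₁ := (e 1).pull Z₂ with hB1
  have tX1 : Tame X₁ := (e 1).tame tX
  have tB1 : Tame B₁ := (e 1).tame t2
  have hB : ∀ i ω, 0 < (S'.P i).w ω → B₁ i ω = B₀ i ω := fun i ω p => hW 1 i ω p
  have a1 : S'.hc X₁ (Sys.pr A B₁) = S.hc X Z₂ :=
    hind 1 X A (fun i ω ω' h => by
      have h0 : (e 0).π i ω = (e 0).π i ω' := h 0 (by decide)
      show Z₁ i ((e 0).π i ω) = Z₁ i ((e 0).π i ω')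
      rw [h0])
  have a2 : S'.hc B₁ X₁ = S.hc Z₂ X := (e 1).hc Z₂ X
  have a3 : S'.hc B₁ (Sys.pr A X₁) ≤ S'.hc B₁ X₁ := hc_le_cond tB1 A X₁
  have a4 : S'.hc B₁ A = S.hc Z₂ Z₁ := by
    rw [← (e 0).hc Z₂ Z₁]
    show S'.hc B₁ A = S'.hc B₀ A
    refine hc_congr ?_ ?_ (Eventually.of_forall fun _ _ _ _ _ q => q) (Eventually.of_forall fun _ _ _ _ _ q => q)
    · refine Eventually.of_forall fun i ω ω' p p' q => ?_
      simp only [Sys.pr_apply, Prod.mk.injEq] at q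
      rw [hB i ω p, hB i ω' p']
      exact q.1
    · refine Eventually.of_forall fun i ω ω' p p' q => ?_
      simp only [Sys.pr_apply, Prod.mk.injEq] at q
      rw [← hB i ω p, ← hB i ω' p']
      exact q.1
  have c1 := hc_pair tB1 tX1 A
  have c2 := hc_pair tX1 tB1 A
  have c3 : S'.hc (Sys.pr B₁ X₁) A = S'.hc (Sys.pr X₁ B₁) A := hc_swap_l380
  have c4 : S'.hc X₁ (Sys.pr B₁ A) = S'.hc X₁ (Sys.pr A B₁) := hc_swap_r380
  have c5 : S'.hc B₁ (Sys.pr X₁ A) = S'.hc B₁ (Sys.pr A X₁) := hc_swap_r380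
  have d1 := hc_pair tX t2 Z₁
  have d2 := hc_pair t2 tX Z₁
  have d3 : S.hc (Sys.pr X Z₂) Z₁ = S.hc (Sys.pr Z₂ X) Z₁ := hc_swap_l380
  have d4 : S.hc X (Sys.pr Z₂ Z₁) = S.hc X (Sys.pr Z₁ Z₂) := hc_swap_r380
  have d5 : S.hc Z₂ (Sys.pr X Z₁) = S.hc Z₂ (Sys.pr Z₁ X) := hc_swap_r380
  have d7 : S.mi Z₂ Z₁ X = S.hc Z₂ X - S.hc Z₂ (Sys.pr Z₁ X) := rfl
  linarith

theorem ol_det380 {a : ℕ → ℝ} (h : UB fun i => a i / S.L i) : OL (S := S) fun i _ => a i := by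
  obtain ⟨C, hC⟩ := h
  refine ⟨C, ?_⟩
  filter_upwards [hC, S.L_pos] with i h1 h2 ω _
  have hL : (0:ℝ) < S.L i := by exact_mod_cast h2
  rw [abs_div, abs_of_pos hL, div_le_iff₀ hL] at h1
  exact h1

theorem av_det380 (a : ℕ → ℝ) : S.av (fun i _ => a i) = ulim fun i => a i / S.L i := by
  unfold Sys.av
  refine ulim_congr (Eventually.of_forall fun i => ?_)
  rw [(S.P i).ex_const]

theorem ol_lev380 {n : ℕ → ℕ} (hn : S.Bd n) (G : S.RV ℕ) (hG : ∀ i ω, G i ω ≤ n i) :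
    OL (S := S) fun i ω => (G i ω : ℝ) := by
  obtain ⟨c, hc⟩ := hn
  refine ⟨c, ?_⟩
  filter_upwards [hc] with i h1 ω _
  have h2 : (G i ω : ℝ) ≤ n i := by exact_mod_cast hG i ω
  rw [abs_of_nonneg (Nat.cast_nonneg _)]
  exact h2.trans h1

end entropy

/-! ### volumes -/

theorem Hc_pos380 {K : ℕ} (F : Flg K) (c i : ℕ) : 0 < Hc F c i := by
  unfold Hc W.hh
  positivity

theorem lvol_eq380 (n c a k : ℕ) (H : ℝ) : lvol n c H ((1 / 2 : ℝ) ^ a) ((1 / 2 : ℝ) ^ k) =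
    2 * (c * n : ℕ) - a - k + Real.logb 2 (max 1 (((1 / 2 : ℝ) ^ k) ^ 2 / H)) := by
  have h0 : (0:ℝ) < max 1 (((1 / 2 : ℝ) ^ k) ^ 2 / H) := lt_of_lt_of_le one_pos (le_max_left _ _)
  unfold lvol
  rw [Real.logb_mul (by positivity) h0.ne', Real.logb_div (by positivity) (by positivity),
    Real.logb_mul (by positivity) (by positivity), ← pow_mul]
  have e : ∀ j : ℕ, Real.logb 2 ((1 / 2 : ℝ) ^ j) = -(j:ℝ) := by
    intro j
    rw [one_div, inv_pow, Real.logb_inv, Real.logb_pow, Real.logb_self_eq_one (by norm_num), mul_one]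
  rw [e, e, e]
  push_cast
  ring

theorem logM_bd380 {x : ℝ} {N : ℕ} (h : x ≤ 2 ^ N) : 0 ≤ Real.logb 2 (max 1 x) ∧ Real.logb 2 (max 1 x) ≤ N := by
  have h1 : (1:ℝ) ≤ max 1 x := le_max_left _ _
  have h2 : max 1 x ≤ 2 ^ N := max_le (one_le_pow₀ (by norm_num)) h
  refine ⟨Real.logb_nonneg (by norm_num) h1, ?_⟩
  calc Real.logb 2 (max 1 x) ≤ Real.logb 2 (2 ^ N) :=
        Real.logb_le_logb_of_le (by norm_num) (by linarith) h2
    _ = N := by rw [Real.logb_pow, Real.logb_self_eq_one (by norm_num), mul_one]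

theorem div_Hc_le380 {K : ℕ} (F : Flg K) (c i : ℕ) {x : ℝ} (h0 : 0 ≤ x) (h1 : x ≤ 1) :
    x / Hc F c i ≤ 2 ^ (2 * c * F.n i) := by
  unfold Hc W.hh
  have h2 : (1:ℝ) ≤ 2 ^ (F.h * F.n i) := one_le_pow₀ (by norm_num)
  have h3 : (0:ℝ) < 2 ^ (2 * c * F.n i) := by positivity
  rw [div_div_eq_mul_div, div_le_iff₀ (by positivity)]
  nlinarith

theorem PB.mono380 {S : Sys} {T : Type} {C C' : ℝ} (h : C ≤ C') {H r : ℕ → ℝ} {l : S.RV Ry} {Z : S.RV T} {f : S.RV Fr}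
    {u1 u2 : S.RV ℝ} (h1 : ∀ i ω, 0 ≤ u1 i ω) (h2 : ∀ i ω, 0 ≤ u2 i ω) (hP : PB C H r l Z f u1 u2) :
    PB C' H r l Z f u1 u2 := by
  refine ⟨?_, ?_⟩
  · filter_upwards [hP.near] with i hi ω ω' p p' e
    obtain ⟨a, b, c, d⟩ := hi ω ω' p p' e
    exact ⟨a, b, c, d.mono380 h (h1 i ω) (h2 i ω)⟩
  · filter_upwards [hP.ok] with i hi ω p
    exact (hi ω p).mono380 h (h1 i ω)

/-- **[UNX]** -/
theorem stUNX (hMEET : StMEET) (hREP : StREP) : StUNX := by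
  intro K F c d hK hc hcd hd2 hdK hw S ex T₁ T₂ Z₁ Z₂ f₁ f₂ C m' k₁ k₂ hk fn1 fn2 t1 t2 P1 P2
  have hcK : c ≤ K := hcd.trans hdK
  -- variables
  set X : S.RV Nd := ex.pull (F.sig c d) with hX
  have tX : Tame X := ex.tame (F.tame_sig hK hcK d)
  set G : S.RV ℕ := fun i ω => lvG' (m' i - k₂ i) (f₁ i ω) (f₂ i ω) ((1 / 2 : ℝ) ^ k₂ i) (Hc F c i) with hG
  obtain ⟨S2, e0, e1, hZ, hun⟩ := uncross_copies380 X Z₁ Z₂ tX t2
  have hL1 : S.L = F.S.L := ex.L_eq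
  have hL2 : S2.L = F.S.L := e0.L_eq.trans ex.L_eq
  -- the join
  obtain ⟨C', f, hPB⟩ := pb_join380 e0 e1 (Hc_pos380 F c) (hk.mono fun i h => ⟨h.1, h.2.1⟩) P1 P2 hZ
  set V : S2.RV (T₁ × ℕ) := fun i ω => (Z₁ i (e0.π i ω), G i (e0.π i ω)) with hV
  have hrep := hREP F c d hK hc hcd hd2 hdK hw S2 (e1.comp ex) (T₁ × ℕ) V f _ _ C' hPB
  -- Bd
  have bdm : F.S.Bd (mm F c d) := F.bd_mul hK (2 * c - d)
  have bdm' : F.S.Bd m' := by
    obtain ⟨B, hB⟩ := bdm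
    refine ⟨B, ?_⟩
    filter_upwards [hB, hk] with i h1 h2
    have : (m' i : ℝ) ≤ mm F c d i := by exact_mod_cast h2.2.2
    linarith
  have bdk : F.S.Bd (fun i => m' i - k₂ i) := Apx.bd_mono bdm' fun i => Nat.sub_le _ _
  have bdk' : S.Bd (fun i => m' i - k₂ i) := by
    obtain ⟨B, hB⟩ := bdk
    exact ⟨B, by rw [hL1]; exact hB⟩
  have bdk'' : S2.Bd (fun i => m' i - k₂ i) := by
    obtain ⟨B, hB⟩ := bdk
    exact ⟨B, by rw [hL2]; exact hB⟩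
  have hGle : ∀ i ω, G i ω ≤ m' i - k₂ i := fun i ω => C1.lev_le _ _
  -- [MEET]
  set C1' := max C 1 with hC1'
  have P1' := P1.mono380 (le_max_left C 1) (fun i _ => by positivity) (fun i _ => by positivity)
  have P2' := P2.mono380 (le_max_left C 1) (fun i _ => by positivity) (fun i _ => by positivity)
  have ubL : ∀ x : ℕ → ℝ, (∀ i, 0 ≤ x i ∧ x i ≤ 1) →
      UB fun i => Real.logb 2 (max 1 (x i / Hc F c i)) / F.S.L i := by
    intro x hx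
    obtain ⟨B, hB⟩ := F.bd_mul hK (2 * c)
    refine UB.of_le (C := B) (Eventually.of_forall fun i => ?_) ?_
    · exact div_nonneg (logM_bd380 (div_Hc_le380 F c i (hx i).1 (hx i).2)).1 (Nat.cast_nonneg _)
    · filter_upwards [hB, F.S.L_pos] with i h1 h2
      have hL : (0:ℝ) < F.S.L i := by exact_mod_cast h2
      rw [div_le_iff₀ hL]
      refine (logM_bd380 (div_Hc_le380 F c i (hx i).1 (hx i).2)).2.trans ?_
      exact h1
  have hmeet := hMEET S X (Hc F c) (mm F c d) m' k₁ k₂ T₁ T₂ Unit Z₁ Z₂ (one (S := S)) f₁ f₂ C1'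
    (by
      obtain ⟨B, hB⟩ := bdm
      exact ⟨B, by rw [hL1]; exact hB⟩) (Hc_pos380 F c)
    (by
      rw [hL1]
      exact ubL (fun _ => 1) fun i => ⟨zero_le_one, le_rfl⟩)
    (by
      filter_upwards [hk] with i h
      refine ⟨h.1, h.2.1, h.2.2, ?_⟩
      have h1 : (1 / 2 : ℝ) ^ (2 * mm F c d i) ≤ Hc F c i := by
        unfold mm Hc W.hh
        rw [le_div_iff₀ (by positivity)]
        have e : (1 / 2 : ℝ) ^ (2 * ((2 * c - d) * F.n i)) * 2 ^ (2 * ((2 * c - d) * F.n i)) = 1 := by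
          rw [← mul_pow]
          norm_num
        have h2 : (2:ℝ) ^ (2 * c * F.n i) ≤ 2 ^ (2 * ((2 * c - d) * F.n i)) * 2 ^ (F.h * F.n i) := by
          rw [← pow_add]
          apply pow_le_pow_right₀ (by norm_num)
          have : 2 * c ≤ 2 * (2 * c - d) + F.h := by omega
          calc 2 * c * F.n i ≤ (2 * (2 * c - d) + F.h) * F.n i := Nat.mul_le_mul_right _ this
            _ = _ := by ring
        calc (1 / 2 : ℝ) ^ (2 * ((2 * c - d) * F.n i)) * 2 ^ (2 * c * F.n i) ≤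
              (1 / 2 : ℝ) ^ (2 * ((2 * c - d) * F.n i)) *
                (2 ^ (2 * ((2 * c - d) * F.n i)) * 2 ^ (F.h * F.n i)) :=
              mul_le_mul_of_nonneg_left h2 (by positivity)
          _ = ((1 / 2 : ℝ) ^ (2 * ((2 * c - d) * F.n i)) * 2 ^ (2 * ((2 * c - d) * F.n i))) *
                2 ^ (F.h * F.n i) := by ring
          _ = 2 ^ (F.h * F.n i) := by rw [e, one_mul]
      refine h1.trans ?_
      exact le_mul_of_one_le_left (Hc_pos380 F c i).le (le_max_right _ _))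
    tX fn2 P1' P2'
  have hmm : S.hc X (Sys.pr Z₁ (Sys.pr Z₂ (one (S := S)))) = S.hc X (Sys.pr Z₁ Z₂) :=
    hc_congr (Eventually.of_forall fun _ _ _ _ _ q => congrArg Prod.fst q)
      (Eventually.of_forall fun _ _ _ _ _ q => congrArg Prod.fst q)
      (Eventually.of_forall fun _ _ _ _ _ q => by
        simp only [Sys.pr_apply, Prod.mk.injEq] at q ⊢
        exact ⟨q.1, q.2, trivial⟩)
      (Eventually.of_forall fun _ _ _ _ _ q => by
        simp only [Sys.pr_apply, Prod.mk.injEq] at q ⊢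
        exact ⟨q.1, q.2.1⟩)
  rw [hmm] at hmeet
  -- the entropy given the join
  set X₁ := e1.pull X with hX1
  set A := e0.pull Z₁ with hA
  have tX1 : Tame X₁ := e1.tame tX
  set Gp : S2.RV ℕ := fun i ω => G i (e0.π i ω) with hGp
  set ball₁ : S2.RV ℤ := (e1.comp ex).pull (F.ball c) with hball
  have tG : Tame Gp := C1.tame_level bdk'' Gp fun i ω => hGle i _
  have tball : Tame ball₁ := (e1.comp ex).tame (F.tame_T hK hcK)
  have z1 : S2.hc Gp A = 0 := C1.hc_level bdk'' Gp (fun i ω => hGle i _) A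
  have z2 : S2.hc ball₁ (Sys.pr Gp A) = 0 := by
    refine hc_fn ?_
    have q0 := e0.fn fn1
    filter_upwards [fn2, fn1] with i g2 g1 ω ω' p p' q
    have q2 : Z₁ i (e0.π i ω) = Z₁ i (e0.π i ω') := congrArg Prod.snd q
    have r1 : ∀ x, 0 < (S2.P i).w x → ex.pull (F.ball c) i (e1.π i x) = ex.pull (F.ball c) i (e0.π i x) :=
      fun x px => g2 _ _ (e1.w_pos i px) (e0.w_pos i px) (hZ i x px)
    show ex.pull (F.ball c) i (e1.π i ω) = ex.pull (F.ball c) i (e1.π i ω')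
    rw [r1 ω p, r1 ω' p']
    exact g1 _ _ (e0.w_pos i p) (e0.w_pos i p') q2
  have z3 : S2.hc (Sys.pr Gp ball₁) A = 0 := by
    rw [hc_pair tG tball A, z1, z2, add_zero]
  have m2 : S2.hc X₁ A ≤ S2.hc X₁ (Sys.pr V ball₁) := by
    have n1 := hc_le_add tX1 (tG.pr tball) A
    have n2 : S2.hc X₁ (Sys.pr (Sys.pr Gp ball₁) A) ≤ S2.hc X₁ (Sys.pr V ball₁) :=
      hc_mono_right tX1 (Eventually.of_forall fun i ω ω' _ _ q => by
        simp only [Sys.pr_apply, Prod.mk.injEq] at q ⊢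
        obtain ⟨⟨q1, q2⟩, q3⟩ := q
        exact ⟨Prod.ext q3 q1, q2⟩)
    linarith
  -- volumes
  have bdk2 : F.S.Bd k₂ := by
    obtain ⟨B, hB⟩ := bdm'
    refine ⟨B, ?_⟩
    filter_upwards [hB, hk] with i h1 h2
    have : (k₂ i : ℝ) ≤ m' i := by exact_mod_cast h2.2.1
    linarith
  have bdk1 : F.S.Bd k₁ := by
    obtain ⟨B, hB⟩ := bdk2
    refine ⟨B, ?_⟩
    filter_upwards [hB, hk] with i h1 h2
    have : (k₁ i : ℝ) ≤ k₂ i := by exact_mod_cast h2.1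
    linarith
  have sq1 : ∀ k : ℕ, 0 ≤ ((1 / 2 : ℝ) ^ k) ^ 2 ∧ ((1 / 2 : ℝ) ^ k) ^ 2 ≤ 1 := fun k =>
    ⟨by positivity, pow_le_one₀ (by positivity) (pow_le_one₀ (by norm_num) (by norm_num))⟩
  have uM1 := ubL (fun i => ((1 / 2 : ℝ) ^ k₁ i) ^ 2) fun i => sq1 _
  have uM2 := ubL (fun i => ((1 / 2 : ℝ) ^ k₂ i) ^ 2) fun i => sq1 _
  have uN := Apx.UB.nu (F.bd_mul hK c)
  have um := Apx.UB.nu bdm'
  have uk1 := Apx.UB.nu bdk1
  have uk2 := Apx.UB.nu bdk2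
  have lin : ∀ {x y z : ℕ → ℕ} {M : ℕ → ℝ}, (UB fun i => (x i : ℝ) / F.S.L i) → (UB fun i => (y i : ℝ) / F.S.L i) →
      (UB fun i => (z i : ℝ) / F.S.L i) → (UB fun i => M i / F.S.L i) →
      (UB fun i => (2 * (x i : ℝ) - y i - z i + M i) / F.S.L i) ∧
      (ulim fun i => (2 * (x i : ℝ) - y i - z i + M i) / F.S.L i) = 2 * (ulim fun i => (x i : ℝ) / F.S.L i) -
        (ulim fun i => (y i : ℝ) / F.S.L i) - (ulim fun i => (z i : ℝ) / F.S.L i) + ulim fun i => M i / F.S.L i := by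
    intro x y z M hx hy hz hM
    have e : (fun i => (2 * (x i : ℝ) - y i - z i + M i) / F.S.L i) = fun i => 2 * ((x i : ℝ) / F.S.L i) -
        (y i : ℝ) / F.S.L i - (z i : ℝ) / F.S.L i + M i / F.S.L i := by
      funext i
      ring
    rw [e]
    refine ⟨(((hx.const_mul 2).sub hy).sub hz).add hM, ?_⟩
    rw [ulim_add (((hx.const_mul 2).sub hy).sub hz) hM, ulim_sub ((hx.const_mul 2).sub hy) hz,
      ulim_sub (hx.const_mul 2) hy, ulim_const_mul 2 hx]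
  have v1 := (lin uN um uk1 uM1).2
  have v2 := (lin uN um uk2 uM2).2
  have v3 := lin uN uk2 uk1 uM1
  have w1 : (ulim fun i => lvol (F.n i) c (Hc F c i) ((1 / 2 : ℝ) ^ m' i) ((1 / 2 : ℝ) ^ k₁ i) / F.S.L i) =
      ulim fun i => (2 * ((c * F.n i : ℕ) : ℝ) - m' i - k₁ i +
        Real.logb 2 (max 1 (((1 / 2 : ℝ) ^ k₁ i) ^ 2 / Hc F c i))) / F.S.L i :=
    ulim_congr (Eventually.of_forall fun i => by rw [lvol_eq380])
  have w2 : (ulim fun i => lvol (F.n i) c (Hc F c i) ((1 / 2 : ℝ) ^ m' i) ((1 / 2 : ℝ) ^ k₂ i) / F.S.L i) =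
      ulim fun i => (2 * ((c * F.n i : ℕ) : ℝ) - m' i - k₂ i +
        Real.logb 2 (max 1 (((1 / 2 : ℝ) ^ k₂ i) ^ 2 / Hc F c i))) / F.S.L i :=
    ulim_congr (Eventually.of_forall fun i => by rw [lvol_eq380])
  have w3 : S2.av (fun i ω => lvol (F.n i) c (Hc F c i) ((1 / 2 : ℝ) ^ (k₂ i + G i (e0.π i ω)))
      ((1 / 2 : ℝ) ^ k₁ i)) = (ulim fun i => (2 * ((c * F.n i : ℕ) : ℝ) - k₂ i - k₁ i +
        Real.logb 2 (max 1 (((1 / 2 : ℝ) ^ k₁ i) ^ 2 / Hc F c i))) / F.S.L i) - S.av (fun i ω => (G i ω : ℝ)) := by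
    have oA : OL (S := S2) fun i _ => 2 * ((c * F.n i : ℕ) : ℝ) - k₂ i - k₁ i +
        Real.logb 2 (max 1 (((1 / 2 : ℝ) ^ k₁ i) ^ 2 / Hc F c i)) := ol_det380 (by
      rw [hL2]
      exact v3.1)
    have oG : OL (S := S2) fun i ω => (Gp i ω : ℝ) := ol_lev380 bdk'' Gp fun i ω => hGle i _
    have e1' : (fun i ω => lvol (F.n i) c (Hc F c i) ((1 / 2 : ℝ) ^ (k₂ i + G i (e0.π i ω)))
      ((1 / 2 : ℝ) ^ k₁ i) : S2.RV ℝ) = fun i ω => (2 * ((c * F.n i : ℕ) : ℝ) - k₂ i - k₁ i +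
        Real.logb 2 (max 1 (((1 / 2 : ℝ) ^ k₁ i) ^ 2 / Hc F c i))) - (Gp i ω : ℝ) := by
      funext i ω
      rw [lvol_eq380]
      push_cast
      ring
    rw [e1', av_sub oA oG, av_det380, hL2]
    congr 1
    exact e0.av fun i ω => (G i ω : ℝ)
  have w4 : (ulim fun i => (m' i : ℝ) / F.S.L i) ≤ ulim fun i => ((c * F.n i : ℕ) : ℝ) / F.S.L i := by
    refine ulim_le um uN ?_
    filter_upwards [hk] with i h
    have h1 : m' i ≤ c * F.n i := by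
      refine h.2.2.trans ?_
      unfold mm
      exact Nat.mul_le_mul_right _ (by omega)
    exact div_le_div_of_nonneg_right (by exact_mod_cast h1) (Nat.cast_nonneg _)
  have w5 : S.nu (mm F c d) - S.nu m' = F.S.nu (mm F c d) - F.S.nu m' := by
    unfold Sys.nu
    rw [hL1]
  have hrep' : S2.hc X₁ (Sys.pr V ball₁) ≤ F.exc c + S2.av (fun i ω => lvol (F.n i) c (Hc F c i)
      ((1 / 2 : ℝ) ^ (k₂ i + G i (e0.π i ω))) ((1 / 2 : ℝ) ^ k₁ i)) := hrep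
  rw [w3, v3.2] at hrep'
  rw [w5, hL1] at hmeet
  have hmeet' : S.hc X (Sys.pr Z₁ Z₂) ≤ S.av (fun i ω => (lvG (m' i - k₂ i) (f₁ i ω) (f₂ i ω) : ℝ)) +
      S.av (fun i ω => (G i ω : ℝ)) + (ulim fun i => Real.logb 2 (max 1 (((1 / 2 : ℝ) ^ k₂ i) ^ 2 / Hc F c i)) / F.S.L i) +
      4 * (F.S.nu (mm F c d) - F.S.nu m') := hmeet
  rw [w1, v1, w2, v2]
  linarith

end Vale.Agent.P106.R.E8
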