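import Vale.Agent.P106.R.E8.Ray

/-!
# P106 / R / E8 : geometry of the join of two pairwise boxes (helper380)

Around the ray `l0` a box of widths `u ≤ P` with frame `f1` and a box of widths `u ≤ p` with frame `f2`, `p ≤ P`; `l1` a ray
of the second box. The values of the first slab at `l1` are at most `C p sD + C u` (`join_le380`); the box of widths
`w, P`, `p sD ≤ C w`, `u ≤ w`, with the transported frame is a box around `l1` (`join_near380`, `join_ok380`).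
-/

set_option autoImplicit false

namespace Vale.Agent.P106.R.E8

open Finset Vale.Agent.P127.U

/-- elementary consequences of `OkF` -/
theorem OkF.one_le380 {C : ℝ} {f : Fr} {u1 u2 r H : ℝ} (h : OkF C f u1 u2 r H) : 1 ≤ C := by
  obtain ⟨h1, h2, -⟩ := h
  have h3 : 0 ≤ f.n 0 ^ 2 + f.n 1 ^ 2 := by positivity
  by_contra h4
  push Not at h4
  nlinarith

theorem abs_n_le380 {C : ℝ} (hC : 1 ≤ C) {f : Fr} (h : f.n 0 ^ 2 + f.n 1 ^ 2 ≤ C) (k : Fin 2) : |f.n k| ≤ C := by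
  have h1 : f.n k ^ 2 ≤ C := by
    fin_cases k
    · show f.n 0 ^ 2 ≤ C
      nlinarith [sq_nonneg (f.n 1)]
    · show f.n 1 ^ 2 ≤ C
      nlinarith [sq_nonneg (f.n 0)]
  have h2 : f.n k ^ 2 ≤ C ^ 2 := by nlinarith
  exact abs_le_of_sq_le_sq h2 (by linarith)

/-- the normal of the difference -/
theorem dif_n_le380 {C : ℝ} (hC : 1 ≤ C) {f1 f2 : Fr} (h2l : 1 ≤ C * (f2.n 0 ^ 2 + f2.n 1 ^ 2))
    (h2u : f2.n 0 ^ 2 + f2.n 1 ^ 2 ≤ C) (k : Fin 2) :
    |(f1.ad f2 (-lamD f1 f2)).n k| ≤ C ^ 2 * |crs f1.n f2.n| := by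
  set N := f2.n 0 ^ 2 + f2.n 1 ^ 2 with hN
  have hNpos : 0 < N := by
    by_contra h
    push Not at h
    nlinarith
  have e0 : N * (f1.ad f2 (-lamD f1 f2)).n 0 = crs f1.n f2.n * f2.n 1 := by
    simp only [ad_n, lamD, crs]
    rw [← hN]
    field_simp
    rw [hN]
    ring
  have e1 : N * (f1.ad f2 (-lamD f1 f2)).n 1 = -(crs f1.n f2.n * f2.n 0) := by
    simp only [ad_n, lamD, crs]
    rw [← hN]
    field_simp
    rw [hN]
    ring
  have key : N * |(f1.ad f2 (-lamD f1 f2)).n k| ≤ |crs f1.n f2.n| * C := by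
    have e : N * |(f1.ad f2 (-lamD f1 f2)).n k| = |N * (f1.ad f2 (-lamD f1 f2)).n k| := by
      rw [abs_mul, abs_of_pos hNpos]
    rw [e]
    fin_cases k
    · show |N * (f1.ad f2 (-lamD f1 f2)).n 0| ≤ _
      rw [e0, abs_mul]
      exact mul_le_mul_of_nonneg_left (abs_n_le380 hC h2u 1) (abs_nonneg _)
    · show |N * (f1.ad f2 (-lamD f1 f2)).n 1| ≤ _
      rw [e1, abs_neg, abs_mul]
      exact mul_le_mul_of_nonneg_left (abs_n_le380 hC h2u 0) (abs_nonneg _)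
  have h0 : 0 ≤ |(f1.ad f2 (-lamD f1 f2)).n k| := abs_nonneg _
  calc |(f1.ad f2 (-lamD f1 f2)).n k| = 1 * |(f1.ad f2 (-lamD f1 f2)).n k| := (one_mul _).symm
    _ ≤ (C * N) * |(f1.ad f2 (-lamD f1 f2)).n k| := mul_le_mul_of_nonneg_right h2l h0
    _ = C * (N * |(f1.ad f2 (-lamD f1 f2)).n k|) := by ring
    _ ≤ C * (|crs f1.n f2.n| * C) := mul_le_mul_of_nonneg_left key (by linarith)
    _ = _ := by ring

theorem lam_le380 {C : ℝ} (hC : 1 ≤ C) {f1 f2 : Fr} (h1u : f1.n 0 ^ 2 + f1.n 1 ^ 2 ≤ C)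
    (h2l : 1 ≤ C * (f2.n 0 ^ 2 + f2.n 1 ^ 2)) (h2u : f2.n 0 ^ 2 + f2.n 1 ^ 2 ≤ C) : |lamD f1 f2| ≤ C ^ 2 := by
  set N := f2.n 0 ^ 2 + f2.n 1 ^ 2 with hN
  have hNpos : 0 < N := by
    by_contra h
    push Not at h
    nlinarith
  unfold lamD
  rw [← hN, abs_div, abs_of_pos hNpos, div_le_iff₀ hNpos]
  have h3 : |f1.n 0 * f2.n 0 + f1.n 1 * f2.n 1| ≤ C := by
    rw [abs_le]
    constructor
    · nlinarith [sq_nonneg (f1.n 0 + f2.n 0), sq_nonneg (f1.n 1 + f2.n 1)]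
    · nlinarith [sq_nonneg (f1.n 0 - f2.n 0), sq_nonneg (f1.n 1 - f2.n 1)]
  calc |f1.n 0 * f2.n 0 + f1.n 1 * f2.n 1| ≤ C * 1 := by rw [mul_one]; exact h3
    _ ≤ C * (C * N) := mul_le_mul_of_nonneg_left h2l (by linarith)
    _ = C ^ 2 * N := by ring

theorem crs_le380 {C : ℝ} {f1 f2 : Fr} (h1u : f1.n 0 ^ 2 + f1.n 1 ^ 2 ≤ C) (h2u : f2.n 0 ^ 2 + f2.n 1 ^ 2 ≤ C) :
    |crs f1.n f2.n| ≤ C := by
  unfold crs
  rw [abs_le]
  constructor
  · nlinarith [sq_nonneg (f1.n 0 + f2.n 1), sq_nonneg (f1.n 1 - f2.n 0)]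
  · nlinarith [sq_nonneg (f1.n 0 - f2.n 1), sq_nonneg (f1.n 1 + f2.n 0)]

theorem MD_nonneg380 (f1 f2 : Fr) : 0 ≤ MD f1 f2 := (abs_nonneg _).trans (le_max_left _ _)

theorem MD_mul_le380 {C : ℝ} (hC : 1 ≤ C) {f1 f2 : Fr} {u p P H r r' : ℝ} (hp : 0 < p) (hpP : p ≤ P) (hH : 0 ≤ H)
    (h1 : OkF C f1 u P r H) (h2 : OkF C f2 u p r' H) : MD f1 f2 * max (p ^ 2) H ≤ 2 * C ^ 3 * p := by
  obtain ⟨-, a2, a3, a4, a5, a6, -, a8, -⟩ := h1
  obtain ⟨b1, b2, b3, b4, b5, b6, -, b8, -⟩ := h2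
  have hl := lam_le380 hC a2 b1 b2
  have hC0 : (0:ℝ) ≤ C := by linarith
  -- bound of one curvature
  have key : ∀ k : ℝ, |k| * p ≤ C → |k| * H ≤ C * u → |k| * max (p ^ 2) H ≤ C * p := by
    intro k k1 k2
    rcases le_total (p ^ 2) H with h | h
    · rw [max_eq_right h]
      exact k2.trans (mul_le_mul_of_nonneg_left b8 hC0)
    · rw [max_eq_left h]
      calc |k| * p ^ 2 = (|k| * p) * p := by ring
        _ ≤ C * p := mul_le_mul_of_nonneg_right k1 hp.le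
  have key1 : ∀ k : ℝ, |k| * P ≤ C → |k| * p ≤ C := fun k hk =>
    (mul_le_mul_of_nonneg_left hpP (abs_nonneg _)).trans hk
  have hM : 0 ≤ max (p ^ 2) H := le_max_of_le_right hH
  have k3 : ∀ a b : ℝ, |a| * max (p ^ 2) H ≤ C * p → |b| * max (p ^ 2) H ≤ C * p →
      |a - lamD f1 f2 * b| * max (p ^ 2) H ≤ 2 * C ^ 3 * p := by
    intro a b ha hb
    have t1 : |a - lamD f1 f2 * b| ≤ |a| + |lamD f1 f2| * |b| := by
      rw [← abs_mul]
      exact abs_sub _ _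
    have t2 : |lamD f1 f2| * (|b| * max (p ^ 2) H) ≤ C ^ 2 * (C * p) :=
      mul_le_mul hl hb (by positivity) (by positivity)
    have t3 : C * p ≤ C ^ 3 * p := by
      apply mul_le_mul_of_nonneg_right _ hp.le
      nlinarith [mul_nonneg hC0 hC0]
    calc |a - lamD f1 f2 * b| * max (p ^ 2) H ≤ (|a| + |lamD f1 f2| * |b|) * max (p ^ 2) H :=
          mul_le_mul_of_nonneg_right t1 hM
      _ = |a| * max (p ^ 2) H + |lamD f1 f2| * (|b| * max (p ^ 2) H) := by ring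
      _ ≤ C * p + C ^ 2 * (C * p) := add_le_add ha t2
      _ ≤ 2 * C ^ 3 * p := by nlinarith
  unfold MD
  rcases max_choice |f1.κ - lamD f1 f2 * f2.κ| |f1.α - lamD f1 f2 * f2.α| with h | h
  · rw [h]
    exact k3 _ _ (key _ (key1 _ a3) a5) (key _ b3 b5)
  · rw [h]
    exact k3 _ _ (key _ (key1 _ a4) a6) (key _ b4 b6)

theorem sD_nonneg380 (f1 f2 : Fr) (p H : ℝ) : 0 ≤ sD f1 f2 p H := (abs_nonneg _).trans (le_max_left _ _)

theorem sD_le380 {C : ℝ} (hC : 1 ≤ C) {f1 f2 : Fr} {u p P H r r' : ℝ} (hp : 0 < p) (hpP : p ≤ P) (hH : 0 ≤ H)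
    (h1 : OkF C f1 u P r H) (h2 : OkF C f2 u p r' H) : sD f1 f2 p H ≤ 2 * C ^ 3 := by
  refine max_le ?_ ?_
  · refine (crs_le380 h1.2.1 h2.2.1).trans ?_
    nlinarith [mul_nonneg (by linarith : (0:ℝ) ≤ C) (by linarith : (0:ℝ) ≤ C)]
  · rw [div_le_iff₀ hp]
    exact MD_mul_le380 hC hp hpP hH h1 h2

/-- sums of products over two coordinates -/
theorem sum2_le380 {a b : Fin 2 → ℝ} {A B : ℝ} (ha : ∀ k, |a k| ≤ A) (hb : ∀ k, |b k| ≤ B) (hA : 0 ≤ A) :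
    |∑ k, a k * b k| ≤ 2 * (A * B) := by
  rw [Fin.sum_univ_two]
  have h0 : |a 0 * b 0| ≤ A * B := by
    rw [abs_mul]
    exact mul_le_mul (ha 0) (hb 0) (abs_nonneg _) hA
  have h1 : |a 1 * b 1| ≤ A * B := by
    rw [abs_mul]
    exact mul_le_mul (ha 1) (hb 1) (abs_nonneg _) hA
  have := abs_add_le (a 0 * b 0) (a 1 * b 1)
  linarith

theorem sumsq_le380 {a : Fin 2 → ℝ} {A : ℝ} (ha : ∀ k, |a k| ≤ A) (hA : 0 ≤ A) : |∑ k, a k ^ 2| ≤ 2 * (A * A) := by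
  have := sum2_le380 ha ha hA
  simpa [sq] using this

/-- values of a frame with small normal and small curvatures -/
theorem small_le380 {C : ℝ} (hC : 1 ≤ C) {D : Fr} {l l' : Ry} {p H a b : ℝ} (hp : 0 ≤ p) (hH : 0 ≤ H) (ha : 0 ≤ a)
    (hb : 0 ≤ b) (hn : ∀ k, |D.n k| ≤ a) (hκ : |D.κ| ≤ b) (hα : |D.α| ≤ b) (hy : ∀ k, |l'.y k - l.y k| ≤ C * p)
    (hs : ∀ k, |l'.s k - l.s k| ≤ C * p) (hd : |dc l l'| ≤ C * max (p ^ 2) H) :
    |GA D l l'| ≤ 9 * C ^ 2 * (a * p + b * max (p ^ 2) H) ∧ |GB D l l'| ≤ 9 * C ^ 2 * (a * p + b * max (p ^ 2) H) := by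
  have hC0 : (0:ℝ) ≤ C := by linarith
  set M := max (p ^ 2) H with hM
  have hM0 : 0 ≤ M := le_max_of_le_right hH
  have hpM : p ^ 2 ≤ M := le_max_left _ _
  have hCC : C ≤ C ^ 2 := by nlinarith
  have hCp : 0 ≤ C * p := by positivity
  have n1 := sum2_le380 hn hy ha
  have n2 := sum2_le380 hn hs ha
  have q1 := sumsq_le380 hy hCp
  have q2 := sumsq_le380 hs hCp
  have q3 := sum2_le380 hy hs hCp
  have ap : 0 ≤ a * p := by positivity
  have bM : 0 ≤ b * M := by positivity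
  -- monomials
  have m1 : 2 * (a * (C * p)) ≤ 2 * C ^ 2 * (a * p) := by
    have : a * (C * p) = C * (a * p) := by ring
    rw [this]
    nlinarith [mul_le_mul_of_nonneg_right hCC ap]
  have m2 : 2 * (C * p * (C * p)) ≤ 2 * C ^ 2 * M := by
    have : C * p * (C * p) = C ^ 2 * p ^ 2 := by ring
    rw [this]
    nlinarith [mul_le_mul_of_nonneg_left hpM (by positivity : (0:ℝ) ≤ C ^ 2)]
  have m3 : C * M ≤ C ^ 2 * M := mul_le_mul_of_nonneg_right hCC hM0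
  have k1 : |D.κ * dc l l'| ≤ b * (C ^ 2 * M) := by
    rw [abs_mul]
    exact mul_le_mul hκ (hd.trans m3) (abs_nonneg _) hb
  have k2 : |D.α * ∑ k, (l'.y k - l.y k) ^ 2| ≤ b * (2 * C ^ 2 * M) := by
    rw [abs_mul]
    exact mul_le_mul hα (q1.trans m2) (abs_nonneg _) hb
  have k3 : |D.κ * (∑ k, (l'.s k - l.s k) ^ 2) / 2| ≤ b * (C ^ 2 * M) := by
    rw [mul_div_assoc, abs_mul]
    refine mul_le_mul hκ ?_ (abs_nonneg _) hb
    rw [abs_div, abs_two]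
    have := q2.trans m2
    linarith
  have k4 : |2 * D.α * (dc l l' - ∑ k, (l'.y k - l.y k) * (l'.s k - l.s k))| ≤ b * (6 * C ^ 2 * M) := by
    have t := abs_sub (dc l l') (∑ k, (l'.y k - l.y k) * (l'.s k - l.s k))
    have t' : |dc l l' - ∑ k, (l'.y k - l.y k) * (l'.s k - l.s k)| ≤ 3 * C ^ 2 * M := by linarith
    have e : 2 * D.α * (dc l l' - ∑ k, (l'.y k - l.y k) * (l'.s k - l.s k)) =
        D.α * (2 * (dc l l' - ∑ k, (l'.y k - l.y k) * (l'.s k - l.s k))) := by ring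
    rw [e, abs_mul]
    refine mul_le_mul hα ?_ (abs_nonneg _) hb
    rw [abs_mul, abs_two]
    linarith
  constructor
  · unfold GA
    have t1 := abs_sub (∑ k, D.n k * (l'.y k - l.y k) + D.κ * dc l l') (D.α * ∑ k, (l'.y k - l.y k) ^ 2)
    have t2 := abs_add_le (∑ k, D.n k * (l'.y k - l.y k)) (D.κ * dc l l')
    nlinarith
  · unfold GB
    have t1 := abs_add_three (∑ k, D.n k * (l'.s k - l.s k)) (D.κ * (∑ k, (l'.s k - l.s k) ^ 2) / 2)
      (2 * D.α * (dc l l' - ∑ k, (l'.y k - l.y k) * (l'.s k - l.s k)))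
    nlinarith

/-- **values of the first slab in the second box** -/
theorem join_le380 {C : ℝ} {f1 f2 : Fr} {u p P H r r' : ℝ} {l0 l1 : Ry} (hp : 0 < p) (hpP : p ≤ P) (hH : 0 ≤ H)
    (hu : 0 ≤ u) (h1 : OkF C f1 u P r H) (h2 : OkF C f2 u p r' H) (hN : Near C f2 u p H l0 l1) :
    |GA f1 l0 l1| ≤ 18 * C ^ 4 * (p * sD f1 f2 p H) + C ^ 3 * u ∧
    |GB f1 l0 l1| ≤ 18 * C ^ 4 * (p * sD f1 f2 p H) + C ^ 3 * u := by
  have hC := h1.one_le380
  have hC0 : (0:ℝ) ≤ C := by linarith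
  obtain ⟨g1, g2, g3, g4, g5⟩ := hN
  have hl := lam_le380 hC h1.2.1 h2.1 h2.2.1
  have hM0 : 0 ≤ max (p ^ 2) H := le_max_of_le_right hH
  have s := small_le380 (C := C) hC (D := f1.ad f2 (-lamD f1 f2)) (l := l0) (l' := l1) (p := p) (H := H)
    (a := C ^ 2 * |crs f1.n f2.n|) (b := MD f1 f2) hp.le hH (by positivity) (MD_nonneg380 _ _)
    (fun k => dif_n_le380 hC h2.1 h2.2.1 k)
    (by
      have : (f1.ad f2 (-lamD f1 f2)).κ = f1.κ - lamD f1 f2 * f2.κ := by rw [ad_κ]; ring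
      rw [this]
      exact le_max_left _ _)
    (by
      have : (f1.ad f2 (-lamD f1 f2)).α = f1.α - lamD f1 f2 * f2.α := by rw [ad_α]; ring
      rw [this]
      exact le_max_right _ _) g1 g2 g3
  have hs0 := sD_nonneg380 f1 f2 p H
  have c1 : |crs f1.n f2.n| ≤ sD f1 f2 p H := le_max_left _ _
  have c2 : MD f1 f2 * max (p ^ 2) H ≤ p * sD f1 f2 p H := by
    have : MD f1 f2 * max (p ^ 2) H / p ≤ sD f1 f2 p H := le_max_right _ _
    rw [div_le_iff₀ hp] at this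
    linarith
  have c3 : 9 * C ^ 2 * (C ^ 2 * |crs f1.n f2.n| * p + MD f1 f2 * max (p ^ 2) H) ≤
      18 * C ^ 4 * (p * sD f1 f2 p H) := by
    have d1 : C ^ 2 * |crs f1.n f2.n| * p ≤ C ^ 2 * (p * sD f1 f2 p H) := by
      have : |crs f1.n f2.n| * p ≤ p * sD f1 f2 p H := by nlinarith
      calc C ^ 2 * |crs f1.n f2.n| * p = C ^ 2 * (|crs f1.n f2.n| * p) := by ring
        _ ≤ _ := mul_le_mul_of_nonneg_left this (by positivity)
    have d2 : MD f1 f2 * max (p ^ 2) H ≤ C ^ 2 * (p * sD f1 f2 p H) := by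
      refine c2.trans ?_
      have : (1:ℝ) ≤ C ^ 2 := by nlinarith
      have h0 : 0 ≤ p * sD f1 f2 p H := by positivity
      nlinarith
    have d3 : 9 * C ^ 2 * (C ^ 2 * |crs f1.n f2.n| * p + MD f1 f2 * max (p ^ 2) H) ≤
        9 * C ^ 2 * (C ^ 2 * (p * sD f1 f2 p H) + C ^ 2 * (p * sD f1 f2 p H)) :=
      mul_le_mul_of_nonneg_left (add_le_add d1 d2) (by positivity)
    refine d3.trans (le_of_eq ?_)
    ring
  have cu : ∀ x : ℝ, |x| ≤ C * u → |lamD f1 f2 * x| ≤ C ^ 3 * u := by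
    intro x hx
    rw [abs_mul]
    calc |lamD f1 f2| * |x| ≤ C ^ 2 * (C * u) := mul_le_mul hl hx (abs_nonneg _) (by positivity)
      _ = _ := by ring
  constructor
  · have e : GA f1 l0 l1 = GA (f1.ad f2 (-lamD f1 f2)) l0 l1 + lamD f1 f2 * GA f2 l0 l1 := by
      rw [GA_ad]
      ring
    rw [e]
    have t := abs_add_le (GA (f1.ad f2 (-lamD f1 f2)) l0 l1) (lamD f1 f2 * GA f2 l0 l1)
    have := cu _ g4
    linarith [s.1]
  · have e : GB f1 l0 l1 = GB (f1.ad f2 (-lamD f1 f2)) l0 l1 + lamD f1 f2 * GB f2 l0 l1 := by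
      rw [GB_ad]
      ring
    rw [e]
    have t := abs_add_le (GB (f1.ad f2 (-lamD f1 f2)) l0 l1) (lamD f1 f2 * GB f2 l0 l1)
    have := cu _ g5
    linarith [s.2]

/-- positions: the difference through three steps -/
theorem three_step380 {a b c : ℝ} {A B : ℝ} (ha : |a| ≤ A) (hb : |b| ≤ B) (hc : |c| ≤ A) (hAB : A ≤ B) :
    |c + b + (-a)| ≤ 3 * B := by
  refine (abs_add_three _ _ _).trans ?_
  rw [abs_neg]
  linarith

/-- the adapted coordinate of the join -/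
theorem join_dc380 {C : ℝ} {p P H : ℝ} {l0 l1 l0' l1' : Ry} (hC : 1 ≤ C)
    (hp : 0 ≤ p) (hpP : p ≤ P) (hH : 0 ≤ H)
    (g2 : ∀ k, |l0'.s k - l0.s k| ≤ C * P) (g3 : |dc l0 l0'| ≤ C * max (P ^ 2) H)
    (s1 : ∀ k, |l1.s k - l0.s k| ≤ C * p) (d1 : |dc l0 l1| ≤ C * max (p ^ 2) H)
    (y2 : ∀ k, |l1'.y k - l0'.y k| ≤ C * p) (d2 : |dc l0' l1'| ≤ C * max (p ^ 2) H)
    (yy : ∀ k, |l1'.y k - l1.y k| ≤ 3 * (C * P)) : |dc l1 l1'| ≤ 11 * (C ^ 2 * max (P ^ 2) H) := by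
  have hC0 : (0:ℝ) ≤ C := by linarith
  have hP0 : 0 ≤ P := hp.trans hpP
  have hCP : C * p ≤ C * P := mul_le_mul_of_nonneg_left hpP hC0
  have hpP2 : p ^ 2 ≤ P ^ 2 := pow_le_pow_left₀ hp hpP 2
  set M := max (P ^ 2) H with hM
  have hMM : max (p ^ 2) H ≤ M := max_le_max hpP2 le_rfl
  have hM0 : 0 ≤ M := le_max_of_le_right hH
  have hPM : P ^ 2 ≤ M := le_max_left _ _
  have e1 := dc_add l0 l1 l1'
  have e2 := dc_add l0 l0' l1'
  have e : dc l1 l1' = dc l0 l0' + dc l0' l1' + (∑ k, (l0'.s k - l0.s k) * (l1'.y k - l0'.y k)) - dc l0 l1 -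
      (∑ k, (l1.s k - l0.s k) * (l1'.y k - l1.y k)) := by linarith
  have hCPn : 0 ≤ C * P := mul_nonneg hC0 hP0
  have hCpn : 0 ≤ C * p := mul_nonneg hC0 hp
  have q1 := sum2_le380 g2 y2 hCPn
  have q2 := sum2_le380 s1 yy hCpn
  have hsq : C * P * (C * P) ≤ C ^ 2 * M := by
    have e : C * P * (C * P) = C ^ 2 * P ^ 2 := by ring
    rw [e]
    exact mul_le_mul_of_nonneg_left hPM (by positivity)
  have r1 : C * P * (C * p) ≤ C * P * (C * P) := mul_le_mul_of_nonneg_left hCP hCPn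
  have r2 : C * p * (C * P) ≤ C * P * (C * P) := mul_le_mul_of_nonneg_right hCP hCPn
  have r2' : C * p * (3 * (C * P)) = 3 * (C * p * (C * P)) := by ring
  have r3 : C * max (p ^ 2) H ≤ C * M := mul_le_mul_of_nonneg_left hMM hC0
  have r4 : C * M ≤ C ^ 2 * M := by
    apply mul_le_mul_of_nonneg_right _ hM0
    nlinarith
  generalize (∑ k, (l0'.s k - l0.s k) * (l1'.y k - l0'.y k)) = X at e q1
  generalize (∑ k, (l1.s k - l0.s k) * (l1'.y k - l1.y k)) = Y at e q2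
  have t : |dc l1 l1'| ≤ |dc l0 l0'| + |dc l0' l1'| + |X| + |dc l0 l1| + |Y| := by
    rw [e]
    have t1 := abs_sub (dc l0 l0' + dc l0' l1' + X - dc l0 l1) Y
    have t2 := abs_sub (dc l0 l0' + dc l0' l1' + X) (dc l0 l1)
    have t3 := abs_add_three (dc l0 l0') (dc l0' l1') X
    linarith
  rw [r2'] at q2
  linarith

/-- the join is a box around the rays of the second copy -/
theorem join_near380 {C E : ℝ} {f1 : Fr} {u w p P H : ℝ} {l0 l1 l0' l1' : Ry} (hC : 1 ≤ C) (hE : C ≤ E)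
    (hp : 0 ≤ p) (hpP : p ≤ P) (hH : 0 ≤ H) (huw : u ≤ w) (hw : 0 ≤ w)
    (hN : Near C f1 u P H l0 l0')
    (y1 : ∀ k, |l1.y k - l0.y k| ≤ C * p) (s1 : ∀ k, |l1.s k - l0.s k| ≤ C * p) (d1 : |dc l0 l1| ≤ C * max (p ^ 2) H)
    (y2 : ∀ k, |l1'.y k - l0'.y k| ≤ C * p) (s2 : ∀ k, |l1'.s k - l0'.s k| ≤ C * p)
    (d2 : |dc l0' l1'| ≤ C * max (p ^ 2) H)
    (a1 : |GA f1 l0 l1| ≤ E * w) (b1 : |GB f1 l0 l1| ≤ E * w)
    (a2 : |GA (f1.tr l0 l0') l0' l1'| ≤ E * w) (b2 : |GB (f1.tr l0 l0') l0' l1'| ≤ E * w) :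
    Near (11 * C * E) (f1.tr l0 l1) w P H l1 l1' := by
  obtain ⟨g1, g2, g3, g4, g5⟩ := hN
  have hC0 : (0:ℝ) ≤ C := by linarith
  have hE0 : 0 ≤ E := by linarith
  have hP0 : 0 ≤ P := hp.trans hpP
  have hE1 : 1 ≤ E := hC.trans hE
  have hCE : C ≤ C * E := le_mul_of_one_le_right hC0 hE1
  have hCP : C * p ≤ C * P := mul_le_mul_of_nonneg_left hpP hC0
  have hM0 : 0 ≤ max (P ^ 2) H := le_max_of_le_right hH
  have yy : ∀ k, |l1'.y k - l1.y k| ≤ 3 * (C * P) := by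
    intro k
    have e : l1'.y k - l1.y k = (l1'.y k - l0'.y k) + (l0'.y k - l0.y k) + (-(l1.y k - l0.y k)) := by ring
    rw [e]
    exact three_step380 (y1 k) (g1 k) (y2 k) hCP
  have ss : ∀ k, |l1'.s k - l1.s k| ≤ 3 * (C * P) := by
    intro k
    have e : l1'.s k - l1.s k = (l1'.s k - l0'.s k) + (l0'.s k - l0.s k) + (-(l1.s k - l0.s k)) := by ring
    rw [e]
    exact three_step380 (s1 k) (g2 k) (s2 k) hCP
  have hCEP : C * P ≤ C * E * P := mul_le_mul_of_nonneg_right hCE hP0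
  have h0 : 0 ≤ C * E * P := by positivity
  have hle : 3 * (C * P) ≤ 11 * C * E * P := by
    have : 11 * C * E * P = 11 * (C * E * P) := by ring
    rw [this]
    linarith
  have r1 : C * u ≤ C * E * w := by
    calc C * u ≤ C * w := mul_le_mul_of_nonneg_left huw hC0
      _ ≤ C * E * w := mul_le_mul_of_nonneg_right hCE hw
  have r2 : E * w ≤ C * E * w := by
    apply mul_le_mul_of_nonneg_right _ hw
    exact le_mul_of_one_le_left hE0 hC
  have r3 : 0 ≤ C * E * w := by positivity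
  have r4 : 11 * C * E * w = 11 * (C * E * w) := by ring
  have fin : ∀ x y z : ℝ, |x| ≤ C * u → |y| ≤ E * w → |z| ≤ E * w → |x + y + (-z)| ≤ 11 * C * E * w := by
    intro x y z hx hy hz
    refine (abs_add_three _ _ _).trans ?_
    rw [abs_neg, r4]
    linarith
  refine ⟨fun k => (yy k).trans hle, fun k => (ss k).trans hle, ?_, ?_, ?_⟩
  · refine (join_dc380 hC hp hpP hH g2 g3 s1 d1 y2 d2 yy).trans ?_
    have e : 11 * C * E * max (P ^ 2) H = 11 * (C * E * max (P ^ 2) H) := by ring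
    rw [e]
    have : C ^ 2 * max (P ^ 2) H ≤ C * E * max (P ^ 2) H := by
      apply mul_le_mul_of_nonneg_right _ hM0
      rw [sq]
      exact mul_le_mul_of_nonneg_left hE hC0
    linarith
  · have e1 := GA_add f1 l0 l1 l1'
    have e2 := GA_add f1 l0 l0' l1'
    have e : GA (f1.tr l0 l1) l1 l1' = GA f1 l0 l0' + GA (f1.tr l0 l0') l0' l1' + (-GA f1 l0 l1) := by linarith
    rw [e]
    exact fin _ _ _ g4 a2 a1
  · have e1 := GB_add f1 l0 l1 l1'
    have e2 := GB_add f1 l0 l0' l1'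
    have e : GB (f1.tr l0 l1) l1 l1' = GB f1 l0 l0' + GB (f1.tr l0 l0') l0' l1' + (-GB f1 l0 l1) := by linarith
    rw [e]
    exact fin _ _ _ g5 b2 b1

/-- the transported frame is admissible if the join is much thinner than wide -/
theorem join_ok380 {C E : ℝ} {f1 : Fr} {u w P r H r' : ℝ} {l0 l1 : Ry} (hE : C ≤ E) (hH : 0 ≤ H)
    (hP : 0 < P) (huw : u ≤ w) (hw : 0 ≤ w) (hr : r' ≤ w) (hwP : 12 * C ^ 2 * E * w ≤ P) (h1 : OkF C f1 u P r H)
    (a1 : |GA f1 l0 l1| ≤ E * w) (b1 : |GB f1 l0 l1| ≤ E * w) :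
    OkF (2 * C) (f1.tr l0 l1) w P r' H := by
  have hC := h1.one_le380
  obtain ⟨c1, c2, c3, c4, c5, c6, c7, c8, c9⟩ := h1
  have hC0 : (0:ℝ) ≤ C := by linarith
  have hE0 : 0 ≤ E := by linarith
  -- the change of the norm
  have key : ∀ k g : ℝ, |k| * P ≤ C → |g| ≤ E * w → |k * g| * (12 * C) ≤ 1 := by
    intro k g hk hg
    have hC12 : 0 ≤ 12 * C := by positivity
    have t1 : |k * g| ≤ |k| * (E * w) := by
      rw [abs_mul]
      exact mul_le_mul_of_nonneg_left hg (abs_nonneg _)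
    have t2 : (|k| * (E * w)) * (12 * C) * P ≤ P := by
      calc (|k| * (E * w)) * (12 * C) * P = (|k| * P) * (12 * C * E * w) := by ring
        _ ≤ C * (12 * C * E * w) := mul_le_mul_of_nonneg_right hk (by positivity)
        _ = 12 * C ^ 2 * E * w := by ring
        _ ≤ P := hwP
    have t3 : (|k| * (E * w)) * (12 * C) ≤ 1 := by
      by_contra h
      push Not at h
      nlinarith
    exact (mul_le_mul_of_nonneg_right t1 hC12).trans t3
  have k1 := key f1.κ (GB f1 l0 l1) c3 b1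
  have k2 := key f1.α (GA f1 l0 l1) c4 a1
  have e := tr_sq f1 l0 l1
  set X := f1.κ * GB f1 l0 l1 with hX
  set Y := f1.α * GA f1 l0 l1 with hY
  have e' : (f1.tr l0 l1).n 0 ^ 2 + (f1.tr l0 l1).n 1 ^ 2 = f1.n 0 ^ 2 + f1.n 1 ^ 2 + 2 * (X - 2 * Y) := by
    rw [e, hX, hY]
    ring
  have x1 := neg_abs_le X
  have x2 := le_abs_self X
  have y1 := neg_abs_le Y
  have y2 := le_abs_self Y
  have hX1 : |X| ≤ 1 / (12 * C) := by
    rw [le_div_iff₀ (by positivity)]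
    exact k1
  have hY1 : |Y| ≤ 1 / (12 * C) := by
    rw [le_div_iff₀ (by positivity)]
    exact k2
  have hc12 : (12 * C) * (1 / (12 * C)) = 1 := by
    field_simp
  set z := 1 / (12 * C) with hz
  have hz0 : 0 ≤ z := by positivity
  have hz1 : 12 * z ≤ 1 := by
    have : 12 * z ≤ 12 * C * z := by nlinarith
    linarith
  refine ⟨?_, ?_, ?_, ?_, ?_, ?_, hr, ?_, c9⟩
  · rw [e']
    have h7 : f1.n 0 ^ 2 + f1.n 1 ^ 2 - 6 * z ≤ f1.n 0 ^ 2 + f1.n 1 ^ 2 + 2 * (X - 2 * Y) := by linarith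
    have h8 := mul_le_mul_of_nonneg_left h7 (by linarith : (0:ℝ) ≤ 2 * C)
    have h9 : 2 * C * (f1.n 0 ^ 2 + f1.n 1 ^ 2 - 6 * z) = 2 * (C * (f1.n 0 ^ 2 + f1.n 1 ^ 2)) - 12 * C * z := by ring
    linarith
  · rw [e']
    linarith
  · show |f1.κ| * P ≤ 2 * C
    linarith
  · show |f1.α| * P ≤ 2 * C
    linarith
  · show |f1.κ| * H ≤ 2 * C * w
    have q1 := mul_le_mul_of_nonneg_left huw hC0
    have q2 := mul_nonneg hC0 hw
    have e : 2 * C * w = C * w + C * w := by ring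
    rw [e]
    linarith
  · show |f1.α| * H ≤ 2 * C * w
    have q1 := mul_le_mul_of_nonneg_left huw hC0
    have q2 := mul_nonneg hC0 hw
    have e : 2 * C * w = C * w + C * w := by ring
    rw [e]
    linarith
  · have q1 : (1:ℝ) ≤ 12 * C ^ 2 * E := by
      have q2 : (1:ℝ) ≤ C ^ 2 := one_le_pow₀ hC
      have q3 : (1:ℝ) ≤ C ^ 2 * E := one_le_mul_of_one_le_of_one_le q2 (hC.trans hE)
      have e : 12 * C ^ 2 * E = 12 * (C ^ 2 * E) := by ring
      rw [e]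
      linarith
    exact (le_mul_of_one_le_left hw q1).trans hwP

/-- the level of a bounded number -/
theorem le_lev380 {n : ℕ} {M D : ℝ} (hD : 2 ≤ D) (hM : M ≤ D) : M ≤ D * (1 / 2 : ℝ) ^ C1.lev n M := by
  by_cases h : M ≤ 2
  · exact (C1.le_lev (n := n) h).trans (mul_le_mul_of_nonneg_right hD (by positivity))
  · push Not at h
    have h0 : C1.lev n M = 0 := by
      classical
      unfold C1.lev
      rw [Nat.findGreatest_eq_zero_iff]
      intro k _ _ hk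
      have : (1 / 2 : ℝ) ^ k ≤ 1 := pow_le_one₀ (by norm_num) (by norm_num)
      linarith
    rw [h0]
    simpa using hM

end Vale.Agent.P106.R.E8
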