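import Vale.Agent.P106.R.E8.H380.Geo

/-!
# P106 / R / E8 : the join of two pairwise boxes on two copies (helper380)
-/

set_option autoImplicit false

namespace Vale.Agent.P106.R.E8

open Filter Topology Finset Vale.Agent.P127 Vale.Agent.P127.Stk Vale.Agent.P127.U Vale.Agent.P127.U.Sys

theorem Near.mono380 {C C' : ℝ} (h : C ≤ C') {f : Fr} {u1 u2 H : ℝ} {l l' : Ry} (h1 : 0 ≤ u1) (h2 : 0 ≤ u2)
    (hN : Near C f u1 u2 H l l') : Near C' f u1 u2 H l l' := by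
  obtain ⟨a, b, c, d, e⟩ := hN
  have hM : 0 ≤ max (u2 ^ 2) H := le_max_of_le_left (sq_nonneg _)
  exact ⟨fun k => (a k).trans (mul_le_mul_of_nonneg_right h h2), fun k => (b k).trans (mul_le_mul_of_nonneg_right h h2),
    c.trans (mul_le_mul_of_nonneg_right h hM), d.trans (mul_le_mul_of_nonneg_right h h1),
    e.trans (mul_le_mul_of_nonneg_right h h1)⟩

theorem OkF.mono380 {C C' : ℝ} (h : C ≤ C') {f : Fr} {u1 u2 r H : ℝ} (h1 : 0 ≤ u1) (hO : OkF C f u1 u2 r H) :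
    OkF C' f u1 u2 r H := by
  obtain ⟨a1, a2, a3, a4, a5, a6, a7, a8, a9⟩ := hO
  have hN : 0 ≤ f.n 0 ^ 2 + f.n 1 ^ 2 := by positivity
  exact ⟨a1.trans (mul_le_mul_of_nonneg_right h hN), a2.trans h, a3.trans h, a4.trans h,
    a5.trans (mul_le_mul_of_nonneg_right h h1), a6.trans (mul_le_mul_of_nonneg_right h h1), a7, a8, a9⟩

/-- the trivial frame -/
def Fr.e0_380 : Fr := ⟨![1, 0], 0, 0⟩

theorem e0_tr380 (l l' : Ry) : Fr.e0_380.tr l l' = Fr.e0_380 := by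
  apply Fr.ext' <;> simp [Fr.e0_380]

theorem e0_GA380 (l l' : Ry) : GA Fr.e0_380 l l' = l'.y 0 - l.y 0 := by
  simp [GA, Fr.e0_380, Fin.sum_univ_two]

theorem e0_GB380 (l l' : Ry) : GB Fr.e0_380 l l' = l'.s 0 - l.s 0 := by
  simp [GB, Fr.e0_380, Fin.sum_univ_two]

/-- **the join of two pairwise boxes is a pairwise box around the second copy** -/
theorem pb_join380 {S S' : Sys} (e0 e1 : Ext S' S) {T₁ T₂ : Type} {l : S.RV Ry} {H r : ℕ → ℝ} {Z₁ : S.RV T₁}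
    {Z₂ : S.RV T₂} {f₁ f₂ : S.RV Fr} {C : ℝ} {m' k₁ k₂ : ℕ → ℕ} (hH : ∀ i, 0 < H i)
    (hk : ∀ᶠ i in (uf : Filter ℕ), k₁ i ≤ k₂ i ∧ k₂ i ≤ m' i)
    (h1 : PB C H r l Z₁ f₁ (fun i _ => (1 / 2 : ℝ) ^ m' i) (fun i _ => (1 / 2 : ℝ) ^ k₁ i))
    (h2 : PB C H r l Z₂ f₂ (fun i _ => (1 / 2 : ℝ) ^ m' i) (fun i _ => (1 / 2 : ℝ) ^ k₂ i))
    (hZ : ∀ i ω, 0 < (S'.P i).w ω → Z₂ i (e1.π i ω) = Z₂ i (e0.π i ω)) :
    ∃ (C' : ℝ) (f : S'.RV Fr), PB C' H r (e1.pull l)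
      (fun i ω => (Z₁ i (e0.π i ω),
        lvG' (m' i - k₂ i) (f₁ i (e0.π i ω)) (f₂ i (e0.π i ω)) ((1 / 2 : ℝ) ^ k₂ i) (H i))) f
      (fun i ω => (1 / 2 : ℝ) ^
        (k₂ i + lvG' (m' i - k₂ i) (f₁ i (e0.π i ω)) (f₂ i (e0.π i ω)) ((1 / 2 : ℝ) ^ k₂ i) (H i)))
      (fun i _ => (1 / 2 : ℝ) ^ k₁ i) := by
  set G : ∀ i, S'.Ω i → ℕ := fun i ω =>
    lvG' (m' i - k₂ i) (f₁ i (e0.π i ω)) (f₂ i (e0.π i ω)) ((1 / 2 : ℝ) ^ k₂ i) (H i) with hG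
  set E : ℝ := 36 * C ^ 7 + C ^ 3 with hE
  obtain ⟨K0, hK0⟩ : ∃ K0 : ℕ, 12 * C ^ 2 * E ≤ (2:ℝ) ^ K0 := by
    obtain ⟨k, hk⟩ := pow_unbounded_of_one_lt (12 * C ^ 2 * E) (by norm_num : (1:ℝ) < 2)
    exact ⟨k, hk.le⟩
  classical
  set f : S'.RV Fr := fun i ω => if k₁ i + K0 ≤ k₂ i + G i ω then
    (f₁ i (e0.π i ω)).tr (l i (e0.π i ω)) (l i (e1.π i ω)) else Fr.e0_380 with hf
  set C' : ℝ := 11 * C * E + 2 * C + 3 * C * 2 ^ K0 + 1 with hC'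
  -- basic facts at one point
  have base : ∀ᶠ i in (uf : Filter ℕ), ∀ ω, 0 < (S'.P i).w ω →
      1 ≤ C ∧ k₁ i ≤ k₂ i ∧ k₂ i ≤ m' i ∧ k₂ i + G i ω ≤ m' i ∧
      Near C (f₂ i (e0.π i ω)) ((1 / 2 : ℝ) ^ m' i) ((1 / 2 : ℝ) ^ k₂ i) (H i) (l i (e0.π i ω)) (l i (e1.π i ω)) ∧
      OkF C (f₁ i (e0.π i ω)) ((1 / 2 : ℝ) ^ m' i) ((1 / 2 : ℝ) ^ k₁ i) (r i) (H i) ∧
      |GA (f₁ i (e0.π i ω)) (l i (e0.π i ω)) (l i (e1.π i ω))| ≤ E * (1 / 2 : ℝ) ^ (k₂ i + G i ω) ∧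
      |GB (f₁ i (e0.π i ω)) (l i (e0.π i ω)) (l i (e1.π i ω))| ≤ E * (1 / 2 : ℝ) ^ (k₂ i + G i ω) := by
    filter_upwards [hk, h1.ok, h2.ok, h2.near] with i g1 g2 g3 g4 ω hω
    have p0 := e0.w_pos i hω
    have p1 := e1.w_pos i hω
    have o1 := g2 _ p0
    have o2 := g3 _ p0
    have hC := o1.one_le380
    have hC0 : (0:ℝ) ≤ C := by linarith
    obtain ⟨-, -, -, nr⟩ := g4 _ _ p0 p1 (hZ i ω hω).symm
    have hgl : G i ω ≤ m' i - k₂ i := C1.lev_le _ _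
    have hgm : k₂ i + G i ω ≤ m' i := by omega
    have hp : (0:ℝ) < (1 / 2) ^ k₂ i := by positivity
    have hpP : (1 / 2 : ℝ) ^ k₂ i ≤ (1 / 2) ^ k₁ i := C1.half_anti g1.1
    have hu : (0:ℝ) ≤ (1 / 2) ^ m' i := by positivity
    obtain ⟨j1, j2⟩ := join_le380 hp hpP (hH i).le hu o1 o2 nr
    have hD : (2:ℝ) ≤ 2 * C ^ 3 := by
      have : (1:ℝ) ≤ C ^ 3 := one_le_pow₀ hC
      linarith
    have hs : sD (f₁ i (e0.π i ω)) (f₂ i (e0.π i ω)) ((1 / 2 : ℝ) ^ k₂ i) (H i) ≤ 2 * C ^ 3 * (1 / 2 : ℝ) ^ G i ω :=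
      le_lev380 hD (sD_le380 hC hp hpP (hH i).le o1 o2)
    have hw : (1 / 2 : ℝ) ^ (k₂ i + G i ω) = (1 / 2) ^ k₂ i * (1 / 2) ^ G i ω := pow_add _ _ _
    have huw : (1 / 2 : ℝ) ^ m' i ≤ (1 / 2) ^ (k₂ i + G i ω) := C1.half_anti hgm
    have t : 18 * C ^ 4 * ((1 / 2 : ℝ) ^ k₂ i * sD (f₁ i (e0.π i ω)) (f₂ i (e0.π i ω)) ((1 / 2 : ℝ) ^ k₂ i) (H i)) +
        C ^ 3 * (1 / 2 : ℝ) ^ m' i ≤ E * (1 / 2 : ℝ) ^ (k₂ i + G i ω) := by
      have t1 : (1 / 2 : ℝ) ^ k₂ i * sD (f₁ i (e0.π i ω)) (f₂ i (e0.π i ω)) ((1 / 2 : ℝ) ^ k₂ i) (H i) ≤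
          2 * C ^ 3 * (1 / 2 : ℝ) ^ (k₂ i + G i ω) := by
        rw [hw]
        calc _ ≤ (1 / 2 : ℝ) ^ k₂ i * (2 * C ^ 3 * (1 / 2 : ℝ) ^ G i ω) := mul_le_mul_of_nonneg_left hs hp.le
          _ = _ := by ring
      have t2 : 18 * C ^ 4 * ((1 / 2 : ℝ) ^ k₂ i * sD (f₁ i (e0.π i ω)) (f₂ i (e0.π i ω)) ((1 / 2 : ℝ) ^ k₂ i) (H i)) ≤
          18 * C ^ 4 * (2 * C ^ 3 * (1 / 2 : ℝ) ^ (k₂ i + G i ω)) := mul_le_mul_of_nonneg_left t1 (by positivity)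
      have t3 : C ^ 3 * (1 / 2 : ℝ) ^ m' i ≤ C ^ 3 * (1 / 2 : ℝ) ^ (k₂ i + G i ω) :=
        mul_le_mul_of_nonneg_left huw (by positivity)
      have e : E * (1 / 2 : ℝ) ^ (k₂ i + G i ω) = 18 * C ^ 4 * (2 * C ^ 3 * (1 / 2 : ℝ) ^ (k₂ i + G i ω)) +
          C ^ 3 * (1 / 2 : ℝ) ^ (k₂ i + G i ω) := by
        rw [hE]
        ring
      rw [e]
      exact add_le_add t2 t3
    exact ⟨hC, g1.1, g1.2, hgm, nr, o1, j1.trans t, j2.trans t⟩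
  refine ⟨C', f, ⟨?_, ?_⟩⟩
  · filter_upwards [base, h1.near] with i b nr ω ω' hω hω' hV
    obtain ⟨hC, c1, c2, c3, c4, c5, c6, c7⟩ := b ω hω
    obtain ⟨-, -, -, c3', c4', c5', c6', c7'⟩ := b ω' hω'
    have p0 := e0.w_pos i hω
    have p0' := e0.w_pos i hω'
    have hV1 : Z₁ i (e0.π i ω) = Z₁ i (e0.π i ω') := congrArg Prod.fst hV
    have hV2 : G i ω = G i ω' := congrArg Prod.snd hV
    obtain ⟨-, -, n3, n4⟩ := nr _ _ p0 p0' hV1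
    have hC0 : (0:ℝ) ≤ C := by linarith
    have hE0 : 0 ≤ E := by positivity
    have hCE : C ≤ E := by
      have q1 : C ≤ C ^ 3 := le_self_pow₀ hC (by norm_num)
      have q2 : 0 ≤ 36 * C ^ 7 := by positivity
      linarith
    refine ⟨?_, rfl, ?_, ?_⟩
    · show (1 / 2 : ℝ) ^ (k₂ i + G i ω) = (1 / 2 : ℝ) ^ (k₂ i + G i ω')
      rw [hV2]
    · show f i ω' = (f i ω).tr (l i (e1.π i ω)) (l i (e1.π i ω'))
      simp only [hf]
      rw [hV2]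
      split_ifs with hc
      · rw [n3, tr_tr, tr_tr]
      · rw [e0_tr380]
    · show Near C' (f i ω) ((1 / 2 : ℝ) ^ (k₂ i + G i ω)) ((1 / 2 : ℝ) ^ k₁ i) (H i) (l i (e1.π i ω)) (l i (e1.π i ω'))
      have hp : (0:ℝ) ≤ (1 / 2) ^ k₂ i := by positivity
      have hpP : (1 / 2 : ℝ) ^ k₂ i ≤ (1 / 2) ^ k₁ i := C1.half_anti c1
      have huw : (1 / 2 : ℝ) ^ m' i ≤ (1 / 2) ^ (k₂ i + G i ω) := C1.half_anti c3
      have hw0 : (0:ℝ) ≤ (1 / 2) ^ (k₂ i + G i ω) := by positivity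
      have hP0 : (0:ℝ) ≤ (1 / 2) ^ k₁ i := by positivity
      have J := join_near380 (E := E) hC hCE hp hpP (hH i).le huw hw0 n4 c4.1 c4.2.1 c4.2.2.1 c4'.1 c4'.2.1 c4'.2.2.1
        c6 c7 (by rw [← n3, hV2]; exact c6') (by rw [← n3, hV2]; exact c7')
      have h11 : 11 * C * E ≤ C' := by
        have : 0 ≤ 3 * C * 2 ^ K0 := by positivity
        rw [hC']
        linarith
      by_cases hc : k₁ i + K0 ≤ k₂ i + G i ω
      · have hfi : f i ω = (f₁ i (e0.π i ω)).tr (l i (e0.π i ω)) (l i (e1.π i ω)) := by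
          simp only [hf]
          rw [if_pos hc]
        rw [hfi]
        exact J.mono380 h11 hw0 hP0
      · have hfi : f i ω = Fr.e0_380 := by
          simp only [hf]
          rw [if_neg hc]
        rw [hfi]
        push Not at hc
        obtain ⟨J1, J2, J3, -, -⟩ := J.mono380 h11 hw0 hP0
        -- sharper bound of the positions
        have hPw : (1 / 2 : ℝ) ^ k₁ i ≤ 2 ^ K0 * (1 / 2) ^ (k₂ i + G i ω) := by
          have q1 : (1 / 2 : ℝ) ^ (k₁ i + K0) ≤ (1 / 2) ^ (k₂ i + G i ω) := C1.half_anti hc.le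
          have q2 : (1 / 2 : ℝ) ^ k₁ i = 2 ^ K0 * (1 / 2 : ℝ) ^ (k₁ i + K0) := by
            rw [pow_add]
            have : (2:ℝ) ^ K0 * (1 / 2) ^ K0 = 1 := by rw [← mul_pow]; norm_num
            calc (1 / 2 : ℝ) ^ k₁ i = (1 / 2 : ℝ) ^ k₁ i * ((2:ℝ) ^ K0 * (1 / 2) ^ K0) := by rw [this, mul_one]
              _ = _ := by ring
          rw [q2]
          exact mul_le_mul_of_nonneg_left q1 (by positivity)
        have hCp : C * (1 / 2 : ℝ) ^ k₂ i ≤ C * (1 / 2 : ℝ) ^ k₁ i := mul_le_mul_of_nonneg_left hpP hC0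
        have q3 : 3 * (C * (1 / 2 : ℝ) ^ k₁ i) ≤ C' * (1 / 2) ^ (k₂ i + G i ω) := by
          calc 3 * (C * (1 / 2 : ℝ) ^ k₁ i) = 3 * C * (1 / 2 : ℝ) ^ k₁ i := by ring
            _ ≤ 3 * C * (2 ^ K0 * (1 / 2) ^ (k₂ i + G i ω)) := mul_le_mul_of_nonneg_left hPw (by positivity)
            _ = (3 * C * 2 ^ K0) * (1 / 2) ^ (k₂ i + G i ω) := by ring
            _ ≤ C' * (1 / 2) ^ (k₂ i + G i ω) := by
                apply mul_le_mul_of_nonneg_right _ hw0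
                have : 0 ≤ 11 * C * E := by positivity
                rw [hC']
                linarith
        refine ⟨J1, J2, J3, ?_, ?_⟩
        · rw [e0_GA380]
          have e : (l i (e1.π i ω')).y 0 - (l i (e1.π i ω)).y 0 = ((l i (e1.π i ω')).y 0 - (l i (e0.π i ω')).y 0) +
              ((l i (e0.π i ω')).y 0 - (l i (e0.π i ω)).y 0) + (-((l i (e1.π i ω)).y 0 - (l i (e0.π i ω)).y 0)) := by
            ring
          rw [e]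
          exact (three_step380 (c4.1 0) (n4.1 0) (c4'.1 0) hCp).trans q3
        · rw [e0_GB380]
          have e : (l i (e1.π i ω')).s 0 - (l i (e1.π i ω)).s 0 = ((l i (e1.π i ω')).s 0 - (l i (e0.π i ω')).s 0) +
              ((l i (e0.π i ω')).s 0 - (l i (e0.π i ω)).s 0) + (-((l i (e1.π i ω)).s 0 - (l i (e0.π i ω)).s 0)) := by
            ring
          rw [e]
          exact (three_step380 (c4.2.1 0) (n4.2.1 0) (c4'.2.1 0) hCp).trans q3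
  · filter_upwards [base] with i b ω hω
    obtain ⟨hC, c1, c2, c3, c4, c5, c6, c7⟩ := b ω hω
    have hC0 : (0:ℝ) ≤ C := by linarith
    have hE0 : 0 ≤ E := by positivity
    have hCE : C ≤ E := by
      have q1 : C ≤ C ^ 3 := le_self_pow₀ hC (by norm_num)
      have q2 : 0 ≤ 36 * C ^ 7 := by positivity
      linarith
    have huw : (1 / 2 : ℝ) ^ m' i ≤ (1 / 2) ^ (k₂ i + G i ω) := C1.half_anti c3
    have hw0 : (0:ℝ) ≤ (1 / 2) ^ (k₂ i + G i ω) := by positivity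
    have hP0 : (0:ℝ) < (1 / 2) ^ k₁ i := by positivity
    have hr : r i ≤ (1 / 2) ^ (k₂ i + G i ω) := c5.2.2.2.2.2.2.1.trans huw
    show OkF C' (f i ω) ((1 / 2 : ℝ) ^ (k₂ i + G i ω)) ((1 / 2 : ℝ) ^ k₁ i) (r i) (H i)
    have h0 : 0 ≤ 11 * C * E := by positivity
    have h3 : 0 ≤ 3 * C * 2 ^ K0 := by positivity
    by_cases hc : k₁ i + K0 ≤ k₂ i + G i ω
    · have hfi : f i ω = (f₁ i (e0.π i ω)).tr (l i (e0.π i ω)) (l i (e1.π i ω)) := by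
        simp only [hf]
        rw [if_pos hc]
      rw [hfi]
      have hwP : 12 * C ^ 2 * E * (1 / 2 : ℝ) ^ (k₂ i + G i ω) ≤ (1 / 2) ^ k₁ i := by
        calc 12 * C ^ 2 * E * (1 / 2 : ℝ) ^ (k₂ i + G i ω) ≤ 2 ^ K0 * (1 / 2 : ℝ) ^ (k₁ i + K0) :=
              mul_le_mul hK0 (C1.half_anti hc) (by positivity) (by positivity)
          _ = (1 / 2) ^ k₁ i := by
              rw [pow_add]
              have : (2:ℝ) ^ K0 * (1 / 2) ^ K0 = 1 := by rw [← mul_pow]; norm_num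
              calc (2:ℝ) ^ K0 * ((1 / 2) ^ k₁ i * (1 / 2) ^ K0) = (1 / 2 : ℝ) ^ k₁ i * ((2:ℝ) ^ K0 * (1 / 2) ^ K0) := by ring
                _ = _ := by rw [this, mul_one]
      refine (join_ok380 hCE (hH i).le hP0 huw hw0 hr hwP c5 c6 c7).mono380 ?_ hw0
      rw [hC']
      linarith
    · have hfi : f i ω = Fr.e0_380 := by
        simp only [hf]
        rw [if_neg hc]
      rw [hfi]
      have hC'1 : 1 ≤ C' := by
        rw [hC']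
        linarith
      have z : |Fr.e0_380.κ| = 0 := by simp [Fr.e0_380]
      have z' : |Fr.e0_380.α| = 0 := by simp [Fr.e0_380]
      have n1 : Fr.e0_380.n 0 ^ 2 + Fr.e0_380.n 1 ^ 2 = 1 := by simp [Fr.e0_380]
      have hcw : 0 ≤ C' * (1 / 2 : ℝ) ^ (k₂ i + G i ω) := by positivity
      refine ⟨?_, ?_, ?_, ?_, ?_, ?_, hr, C1.half_anti (by omega), pow_le_one₀ (by norm_num) (by norm_num)⟩
      · rw [n1]
        linarith
      · rw [n1]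
        exact hC'1
      · rw [z]
        linarith
      · rw [z']
        linarith
      · rw [z]
        linarith
      · rw [z']
        linarith

end Vale.Agent.P106.R.E8
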